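import Vale.Agent.P366.H353.CF.Theta
import Vale.Agent.P366.CF.Defs
import Vale.Agent.P366.CL.Flux
import Vale.Agent.P366.H745.CH.LevB
import Vale.Agent.P366.H375.CH.LeafOf

/-! The boundary of data foliated by hypersurfaces of Euclidean space: null expansion and flux. -/

open MeasureTheory Metric Filter Topology Set
open scoped ContDiff ENNReal

noncomputable section
namespace Vale.Agent.P366.CF

open Vale.Agent.P366 (pd E)
open Vale.Agent.P366.H353.N
open Vale.Agent.P366.Kerr (NullCone Psi)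
open Vale.Agent.P366.KSN (Y dts sg OO mem_OO)
open Vale.Agent.P366.CH (bp mc Bodies levAll bodies_one bp_sup supC)
open Vale.Agent.P366.Convex (IsSupport ray)

variable {n : ℕ} {ι : Type} {C : ι → NullCone n} {nu : Fin n → E n → ℝ} {W : E n → ℝ}
  {D : Stmt.Exterior n} {h : E n → ℝ} {x y : E n}

/-- The interface for several bodies. -/
structure Fb (C : ι → NullCone n) (nu : Fin n → E n → ℝ) (W : E n → ℝ) (D : Stmt.Exterior n) :
    Prop where
  bod : Bodies D.F C
  smN : ∀ y, 0 ≤ D.F y → ∀ i, ContDiffAt ℝ ∞ (nu i) y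
  smW : ∀ y, 0 ≤ D.F y → ContDiffAt ℝ ∞ W y
  unit : ∀ y, 0 ≤ D.F y → ∑ i, nu i y ^ 2 = 1
  met : ∀ y, 0 ≤ D.F y → ∀ i j, D.g y i j = (if i = j then 1 else 0) + W y * nu i y * nu j y
  bdr : ∀ k x, ‖x‖ = 1 → ∀ i, nu i (bp (C k) x) = x i

lemma IsFol.toFb [Fact (3 ≤ n)] (hF : IsFol h nu W D) :
    Fb (fun _ : Unit => supC hF.sup) nu W D where
  bod := bodies_one hF.sup D.dom.1.continuous hF.dom
  smN := hF.smN
  smW := hF.smW
  unit := hF.unit
  met := hF.met
  bdr := fun _ x hx i => by rw [bp_sup hF.sup hx]; exact hF.bdr x hx i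

/-- the gradient of a function which vanishes on a hypersurface -/
lemma par_of_zero {F G : E n → ℝ} {y : E n} (hF : ContDiffAt ℝ ∞ F y) (hG : ContDiffAt ℝ ∞ G y)
    (h0 : ∀ᶠ z in 𝓝 y, F z = 0 → G z = 0) (hy : F y = 0) (hne : ∃ i, Stmt.pd i F y ≠ 0) :
    ∃ c, ∀ i, Stmt.pd i G y = c * Stmt.pd i F y := by
  have hF' : HasStrictFDerivAt F (fderiv ℝ F y) y := hF.hasStrictFDerivAt (by simp)
  have hG' : HasStrictFDerivAt G (fderiv ℝ G y) y := hG.hasStrictFDerivAt (by simp)
  have hG0 : G y = 0 := h0.self_of_nhds hy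
  have hext : IsLocalExtrOn G {z | F z = F y} y := by
    left
    show ∀ᶠ z in 𝓝[{z | F z = F y}] y, G y ≤ G z
    rw [eventually_nhdsWithin_iff]
    filter_upwards [h0] with z hz hz'
    have h1 : F z = 0 := by rw [← hy]; exact hz'
    rw [hG0, hz h1]
  obtain ⟨a, b, hab, he⟩ := hext.exists_multipliers_of_hasStrictFDerivAt_1d hF' hG'
  have hpd : ∀ i, a * Stmt.pd i F y + b * Stmt.pd i G y = 0 := by
    intro i
    have h1 := congrArg (fun L => L (EuclideanSpace.single i (1 : ℝ))) he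
    rw [CL.spd_eq hF, CL.spd_eq hG]
    exact h1
  have hb : b ≠ 0 := by
    intro hb
    have ha : a ≠ 0 := fun ha => hab (by rw [ha, hb]; rfl)
    obtain ⟨i, hi⟩ := hne
    have h1 := hpd i
    rw [hb, zero_mul, add_zero] at h1
    exact hi ((mul_eq_zero.1 h1).resolve_left ha)
  refine ⟨-a / b, fun i => ?_⟩
  have h1 := hpd i
  rw [div_mul_eq_mul_div, eq_div_iff hb]
  linarith

namespace Fb

variable (hB : Fb C nu W D)
include hB

lemma hp (hy : 0 ≤ D.F y) (k i : Fin n) : T2.HP k (nu i) (Stmt.pd k (nu i) y) y :=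
  T2.HP.of_diff ((hB.smN y hy i).differentiableAt (by simp))

lemma one (hy : 0 ≤ D.F y) : ∑ i, nu i y * nu i y = 1 := by
  rw [← hB.unit y hy]
  exact Finset.sum_congr rfl fun i _ => by ring

/-- the derivative of the unit vector field -/
lemma perp (hy : 0 ≤ D.F y) (k : Fin n) : ∑ i, Stmt.pd k (nu i) y * nu i y = 0 := by
  have h1 : T2.HP k (fun z => ∑ i, nu i z * nu i z)
      (∑ i, (Stmt.pd k (nu i) y * nu i y + nu i y * Stmt.pd k (nu i) y)) y :=
    T2.HP.sum _ fun i _ => (hB.hp hy k i).mul (hB.hp hy k i)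
  have hd : DifferentiableAt ℝ (fun z => ∑ i, nu i z * nu i z) y :=
    DifferentiableAt.fun_sum fun i _ => ((hB.smN y hy i).differentiableAt (by simp)).mul
      ((hB.smN y hy i).differentiableAt (by simp))
  have h2 := H375.pd_eq_of_eqOn D.dom.1 D.dom.2.1 (v := fun _ => 1) (fun z hz => hB.one hz) hy hd
    (differentiableAt_const _) k
  rw [h1.pd, (T2.HP.const k 1 y).pd] at h2
  have e : ∑ i, (Stmt.pd k (nu i) y * nu i y + nu i y * Stmt.pd k (nu i) y) =
      2 * ∑ i, Stmt.pd k (nu i) y * nu i y := by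
    rw [Finset.mul_sum]
    exact Finset.sum_congr rfl fun i _ => by ring
  rw [e] at h2
  linarith

/-- the derivative of the metric -/
lemma pdg (hy : 0 ≤ D.F y) (k i j : Fin n) : Stmt.pd k (fun z => D.g z i j) y =
    Stmt.pd k W y * nu i y * nu j y + W y * (Stmt.pd k (nu i) y * nu j y +
      nu i y * Stmt.pd k (nu j) y) := by
  have hW : T2.HP k W (Stmt.pd k W y) y :=
    T2.HP.of_diff ((hB.smW y hy).differentiableAt (by simp))
  have h1 : T2.HP k (fun z => (if i = j then (1 : ℝ) else 0) + W z * nu i z * nu j z) _ y :=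
    (T2.HP.const k _ y).add ((hW.mul (hB.hp hy k i)).mul (hB.hp hy k j))
  have hd : DifferentiableAt ℝ (fun z => (if i = j then (1 : ℝ) else 0) +
      W z * nu i z * nu j z) y :=
    (differentiableAt_const _).add ((((hB.smW y hy).differentiableAt (by simp)).mul
      ((hB.smN y hy i).differentiableAt (by simp))).mul
        ((hB.smN y hy j).differentiableAt (by simp)))
  rw [H375.pd_eq_of_eqOn D.dom.1 D.dom.2.1 (fun z hz => hB.met z hz i j) hy
    (((D.smooth i j).1.contDiffAt).differentiableAt (by simp)) hd k, h1.pd]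
  ring

lemma one_W_pos (hy : 0 ≤ D.F y) : 0 < 1 + W y := by
  have hP := D.pos _ hy
  have hone := hB.one hy
  have h0 : (fun i => nu i y : Fin n → ℝ) ≠ 0 := by
    intro h
    have h2 : ∀ i, nu i y = 0 := fun i => congrFun h i
    simp only [h2, mul_zero, Finset.sum_const_zero] at hone
    exact zero_ne_one hone
  have h1 := hP.dotProduct_mulVec_pos h0
  simp only [star_trivial] at h1
  have e : (fun i => nu i y : Fin n → ℝ) ⬝ᵥ (Stmt.mat D.g y).mulVec
      (fun i => nu i y) = 1 + W y := by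
    unfold dotProduct Matrix.mulVec dotProduct Stmt.mat
    simp only [hB.met y hy]
    have e1 : ∀ i, nu i y * ∑ j, ((if i = j then (1 : ℝ) else 0) +
        W y * nu i y * nu j y) * nu j y = nu i y * nu i y + W y * (nu i y * nu i y) := by
      intro i
      have e2 : ∀ j, ((if i = j then (1 : ℝ) else 0) +
        W y * nu i y * nu j y) * nu j y = (if i = j then nu j y else 0) +
          W y * nu i y * (nu j y * nu j y) := fun j => by split_ifs <;> ring
      simp only [e2, Finset.sum_add_distrib, Finset.sum_ite_eq, Finset.mem_univ, if_true,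
        ← Finset.mul_sum, hone]
      ring
    simp only [e1, Finset.sum_add_distrib, ← Finset.mul_sum, hone, mul_one]
  rw [e] at h1
  exact h1

lemma bmem (k : ι) (hx : ‖x‖ = 1) : 0 ≤ D.F (bp (C k) x) := (hB.bod.bdr k x hx).ge

/-- The Euclidean mean curvature of the boundary. -/
theorem mcl_bdr [Fact (3 ≤ n)] [Finite ι] (k : ι) (hx : ‖x‖ = 1) :
    mcl nu (bp (C k) x) = mc (C k) x ∧ ∃ b, 0 < b ∧
      (∀ i, Stmt.pd i D.F (bp (C k) x) = b * x i) ∧
      ∑ i, Stmt.pd i (Stmt.pd i D.F) (bp (C k) x) - ∑ i, ∑ j, x i * x j *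
        Stmt.pd i (Stmt.pd j D.F) (bp (C k) x) = b * mcl nu (bp (C k) x) := by
  have hlev := fun (k : ι) {x : E n} (hx : ‖x‖ = 1) => hB.bod.lev levAll D.dom.1 D.dom.2.1
    (k := k) hx
  obtain ⟨b, hb, hL⟩ := hlev k hx
  have hy := hB.bmem k hx
  set y := bp (C k) x with hyd
  have hn1 : (n : ℝ) - 1 ≠ 0 := by
    have h3 := Fact.out (p := 3 ≤ n)
    have : (3 : ℝ) ≤ n := by exact_mod_cast h3
    intro h
    linarith
  have hsnd := hL.snd
  rw [div_div_cancel₀ hn1] at hsnd
  have hnx : ∀ i, nu i y = x i := fun i => hB.bdr k x hx i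
  have hxx : ∑ i, x i * x i = 1 := by
    rw [← hB.one hy]
    exact Finset.sum_congr rfl fun i _ => by rw [hnx]
  have hFs : ∀ z, ContDiffAt ℝ ∞ D.F z := fun z => D.dom.1.contDiffAt
  have hFp : ∀ j z, ContDiffAt ℝ ∞ (Stmt.pd j D.F) z := fun j z => CL.spd_cd (hFs z) j
  have hhF : ∀ j k, T2.HP k (Stmt.pd j D.F) (Stmt.pd k (Stmt.pd j D.F) y) y := fun j k =>
    T2.HP.of_diff ((hFp j y).differentiableAt (by simp))
  -- the functions which vanish on the boundary
  have hpar : ∀ i, ∃ c, ∀ k, Stmt.pd k (fun z => nu i z * (∑ j, nu j z * Stmt.pd j D.F z) -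
      Stmt.pd i D.F z) y = c * Stmt.pd k D.F y := by
    intro i
    refine par_of_zero (hFs y) ?_ ?_ (hB.bod.bdr k x hx) (D.dom.2.1 _ (hB.bod.bdr k x hx))
    · exact ((hB.smN y hy i).mul (ContDiffAt.sum fun j _ => (hB.smN y hy j).mul
        (hFp j y))).sub (hFp i y)
    · refine Eventually.of_forall fun z hz => ?_
      rcases hB.bod.cases hz.ge with h1 | ⟨k', x', hx', rfl⟩
      · have := hB.bod.pos_out D.dom.1 D.dom.2.1 h1
        rw [hz] at this
        exact absurd this (lt_irrefl _)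
      · obtain ⟨b', -, hL'⟩ := hlev k' hx'
        have h2 : ∀ i, nu i (bp (C k') x') = x' i := fun i => hB.bdr k' x' hx' i
        have h3 : ∀ i, Stmt.pd i D.F (bp (C k') x') = b' * x' i := fun i => hL'.fst i
        have h4 : ∑ i, x' i * x' i = 1 := by
          rw [← hB.one (hB.bmem k' hx')]
          exact Finset.sum_congr rfl fun i _ => by rw [h2]
        simp only [h2, h3]
        have e : ∑ j, x' j * (b' * x' j) = b' := by
          have : ∀ j, x' j * (b' * x' j) = b' * (x' j * x' j) := fun j => by ring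
          simp only [this, ← Finset.mul_sum, h4, mul_one]
        rw [e]
        ring
  choose c hc using hpar
  obtain ⟨ds, hds⟩ : ∃ ds : Fin n → ℝ, ∀ k, T2.HP k (fun z => ∑ j, nu j z * Stmt.pd j D.F z)
      (ds k) y := ⟨fun k => ∑ j, (Stmt.pd k (nu j) y * Stmt.pd j D.F y +
        nu j y * Stmt.pd k (Stmt.pd j D.F) y), fun k => T2.HP.sum _ fun j _ =>
          (hB.hp hy k j).mul (hhF j k)⟩
  have hs : ∑ j, nu j y * Stmt.pd j D.F y = b := by
    have : ∀ j, nu j y * Stmt.pd j D.F y = b * (x j * x j) := fun j => by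
      rw [hnx, hL.fst]; ring
    simp only [this, ← Finset.mul_sum, hxx, mul_one]
  have hrel : ∀ i k, Stmt.pd k (nu i) y * b + x i * ds k - Stmt.pd k (Stmt.pd i D.F) y =
      c i * (b * x k) := by
    intro i k
    have h1 : T2.HP k (fun z => nu i z * (∑ j, nu j z * Stmt.pd j D.F z) -
      Stmt.pd i D.F z) _ y := ((hB.hp hy k i).mul (hds k)).sub (hhF i k)
    have h2 := hc i k
    rw [h1.pd, hL.fst k, hs, hnx] at h2
    exact h2
  have hsum1 : ∑ i, (Stmt.pd i (nu i) y * b + x i * ds i - Stmt.pd i (Stmt.pd i D.F) y) =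
      ∑ i, c i * (b * x i) := Finset.sum_congr rfl fun i _ => hrel i i
  have hsum2 : ∑ k, ∑ i, x k * x i * (Stmt.pd k (nu i) y * b + x i * ds k -
      Stmt.pd k (Stmt.pd i D.F) y) = ∑ k, ∑ i, x k * x i * (c i * (b * x k)) :=
    Finset.sum_congr rfl fun k _ => Finset.sum_congr rfl fun i _ => by rw [hrel i k]
  have hperp : ∀ k, ∑ i, Stmt.pd k (nu i) y * x i = 0 := fun k => by
    rw [← hB.perp hy k]
    exact Finset.sum_congr rfl fun i _ => by rw [hnx]
  have e1 : ∀ k, ∑ i, x k * x i * (Stmt.pd k (nu i) y * b + x i * ds k -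
      Stmt.pd k (Stmt.pd i D.F) y) = x k * ds k -
        ∑ i, x k * x i * Stmt.pd k (Stmt.pd i D.F) y := by
    intro k
    have e2 : ∀ i, x k * x i * (Stmt.pd k (nu i) y * b + x i * ds k -
      Stmt.pd k (Stmt.pd i D.F) y) = x k * b * (Stmt.pd k (nu i) y * x i) +
        x k * ds k * (x i * x i) - x k * x i * Stmt.pd k (Stmt.pd i D.F) y := fun i => by ring
    simp only [e2, Finset.sum_add_distrib, Finset.sum_sub_distrib, ← Finset.mul_sum, hxx, hperp]
    ring
  have e3 : ∀ k, ∑ i, x k * x i * (c i * (b * x k)) = x k * x k * ∑ i, c i * (b * x i) := by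
    intro k
    rw [Finset.mul_sum]
    exact Finset.sum_congr rfl fun i _ => by ring
  simp only [e1, e3, ← Finset.sum_mul, hxx, one_mul, Finset.sum_sub_distrib] at hsum2
  rw [← hsum2] at hsum1
  simp only [Finset.sum_add_distrib, Finset.sum_sub_distrib, ← Finset.sum_mul] at hsum1
  have hm : b * mcl nu y = ∑ i, Stmt.pd i (Stmt.pd i D.F) y -
      ∑ i, ∑ j, x i * x j * Stmt.pd i (Stmt.pd j D.F) y := by
    unfold mcl
    linarith
  have hm2 : b * mcl nu y = mc (C k) x * b := by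
    rw [hm, ← hsnd]
    rfl
  refine ⟨?_, b, hb, fun i => hL.fst i, hm.symm⟩
  have h5 : b * (mcl nu y - mc (C k) x) = 0 := by linarith
  have h6 := (mul_eq_zero.1 h5).resolve_left hb.ne'
  linarith

/-- The null expansion of the boundary. -/
theorem theta [Fact (3 ≤ n)] [Finite ι] (k : ι) (hx : ‖x‖ = 1) :
    Stmt.thetaPlus D.g D.K D.F (bp (C k) x) =
      mcl nu (bp (C k) x) / √(1 + W (bp (C k) x)) + trL nu D.K (bp (C k) x) := by
  obtain ⟨-, b, hb, hfst, hsnd⟩ := hB.mcl_bdr k hx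
  have hy := hB.bmem k hx
  set y := bp (C k) x with hyd
  have hnx : ∀ i, nu i y = x i := fun i => hB.bdr k x hx i
  rw [Stmt.CFt.theta_pt (ν := fun i => nu i y) (N := fun i j => Stmt.pd i (nu j) y)
    (dw := fun k => Stmt.pd k W y) (hB.unit y hy) (hB.one_W_pos hy) hb (hB.met y hy)
    (fun i => by rw [hfst i, hnx]) (fun i => hB.perp hy i) (fun k i j => hB.pdg hy k i j)
    (by simp only [hnx]; exact hsnd)]
  unfold trL nn col mcl
  congr 2
  refine Finset.sum_congr rfl fun i _ => ?_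
  rw [Finset.sum_mul]
  exact Finset.sum_congr rfl fun j _ => by ring

/-- the flux of `XF` through a leaf -/
theorem XF_nor (hy : 0 ≤ D.F y) : ∑ i, XF nu W D.K i y * nu i y =
    vv nu W D.K y / 2 * mcl nu y := by
  have hone := hB.one hy
  obtain ⟨r, hr⟩ : ∃ r, r = ∑ j, Stmt.pd j W y * nu j y := ⟨_, rfl⟩
  have hac : ∑ i, acc nu W i y * nu i y = 0 := by
    unfold acc grd
    simp only [← hr]
    have e : ∀ i, (Stmt.pd i W y - r * nu i y) / (2 * (1 + W y)) * nu i y =
        (2 * (1 + W y))⁻¹ * (Stmt.pd i W y * nu i y) -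
          (2 * (1 + W y))⁻¹ * r * (nu i y * nu i y) := fun i => by
      rw [div_eq_mul_inv]; ring
    simp only [e, Finset.sum_sub_distrib, ← Finset.mul_sum, hone, ← hr]
    ring
  have hal : ∑ i, alf nu W D.K i y * nu i y = 0 := by
    unfold alf
    have e : ∀ i, (col nu D.K i y - nn nu D.K y * nu i y) / √(1 + W y) * nu i y =
        (√(1 + W y))⁻¹ * (col nu D.K i y * nu i y) -
          (√(1 + W y))⁻¹ * nn nu D.K y * (nu i y * nu i y) := fun i => by
      rw [div_eq_mul_inv]; ring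
    simp only [e, Finset.sum_sub_distrib, ← Finset.mul_sum, hone]
    unfold nn
    ring
  have hcu : ∑ i, cur nu i y * nu i y = 0 := by
    unfold cur
    simp only [Finset.sum_mul]
    rw [Finset.sum_comm]
    refine Finset.sum_eq_zero fun j _ => ?_
    have e : ∑ i, nu j y * Stmt.pd j (nu i) y * nu i y =
        nu j y * ∑ i, Stmt.pd j (nu i) y * nu i y := by
      rw [Finset.mul_sum]
      exact Finset.sum_congr rfl fun i _ => by ring
    rw [e, hB.perp hy j, mul_zero]
  unfold XF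
  have e : ∀ i, (vv nu W D.K y / 2 * (mcl nu y * nu i y + cur nu i y) - acc nu W i y -
      rat nu W D.K y * alf nu W D.K i y) * nu i y =
      vv nu W D.K y / 2 * mcl nu y * (nu i y * nu i y) +
      vv nu W D.K y / 2 * (cur nu i y * nu i y) - acc nu W i y * nu i y -
        rat nu W D.K y * (alf nu W D.K i y * nu i y) := fun i => by ring
  simp only [e, Finset.sum_sub_distrib, Finset.sum_add_distrib, ← Finset.mul_sum, hone, hac,
    hal, hcu]
  ring

lemma mc_pos [Fact (3 ≤ n)] (k : ι) (hx : ‖x‖ = 1) : 0 < mc (C k) x :=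
  div_pos (KSN.sg_pos (C k) hx le_rfl) (KSN.dts_pos (C k) hx le_rfl)

/-- on the boundary `τ / H ≤ -1` -/
theorem rat_bdr [Fact (3 ≤ n)] [Finite ι] (hT : D.Trapped) (k : ι) (hx : ‖x‖ = 1) :
    rat nu W D.K (bp (C k) x) ≤ -1 := by
  have hy := hB.bmem k hx
  have h1 := hT _ (hB.bod.bdr k x hx)
  rw [hB.theta k hx] at h1
  have hl : 0 < mcl nu (bp (C k) x) := by rw [(hB.mcl_bdr k hx).1]; exact hB.mc_pos k hx
  have hs := Real.sqrt_pos.2 (hB.one_W_pos hy)
  unfold rat kap
  generalize √(1 + W (bp (C k) x)) = w at *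
  generalize mcl nu (bp (C k) x) = l at *
  generalize trL nu D.K (bp (C k) x) = t at *
  have h2 : t ≤ -(l / w) := by linarith
  rw [div_mul_eq_mul_div, div_le_iff₀ hl]
  have h3 := mul_le_mul_of_nonneg_right h2 hs.le
  have h4 : -(l / w) * w = -1 * l := by field_simp
  linarith

theorem one_le_vv [Fact (3 ≤ n)] [Finite ι] (hT : D.Trapped) (k : ι) (hx : ‖x‖ = 1) :
    1 ≤ vv nu W D.K (bp (C k) x) := by
  have hy := hB.bmem k hx
  have hw := hB.one_W_pos hy
  have h1 := hB.rat_bdr hT k hx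
  have hss := Real.sq_sqrt hw.le
  have hs := Real.sqrt_pos.2 hw
  unfold rat at h1
  unfold vv
  generalize W (bp (C k) x) = w at *
  generalize kap nu D.K (bp (C k) x) = κ at *
  have h2 : 1 ≤ κ ^ 2 * (1 + w) := by
    rw [← hss]
    nlinarith
  have h3 : w / (1 + w) = 1 - 1 / (1 + w) := by field_simp; ring
  have h4 : 1 / (1 + w) ≤ κ ^ 2 := by
    rw [div_le_iff₀ hw]; exact h2
  linarith

/-- The exact boundary flux. -/
theorem bdr_eq [Fact (3 ≤ n)] [Finite ι] (k : ι) (hx : ‖x‖ = 1) :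
    2 * (dts (C k).H ((C k).U x) x * ∑ i, XF nu W D.K i (bp (C k) x) * x i) =
      vv nu W D.K (bp (C k) x) * sg (C k).H ((C k).U x) x := by
  have hy := hB.bmem k hx
  have h1 := hB.XF_nor hy
  have hnx : ∀ i, nu i (bp (C k) x) = x i := fun i => hB.bdr k x hx i
  simp only [hnx] at h1
  rw [h1, (hB.mcl_bdr k hx).1]
  unfold mc
  have hd := (KSN.dts_pos (C k) hx (le_refl ((C k).U x))).ne'
  field_simp

/-- The boundary inequality. -/
theorem bdr_XF [Fact (3 ≤ n)] [Finite ι] (hT : D.Trapped) (k : ι) (hx : ‖x‖ = 1) :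
    sg (C k).H ((C k).U x) x ≤
      2 * (dts (C k).H ((C k).U x) x * ∑ i, XF nu W D.K i (bp (C k) x) * x i) := by
  rw [hB.bdr_eq k hx]
  have h1 := hB.one_le_vv hT k hx
  have h2 : 0 < sg (C k).H ((C k).U x) x := KSN.sg_pos (C k) hx le_rfl
  nlinarith

end Fb

end Vale.Agent.P366.CF
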