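import Vale.Agent.P366.H353.CF.DivQ
import Vale.Agent.P366.CF.Base
import Vale.Agent.P366.H896.G.Far

/-! The divergence of `√(1 + W) π(Z)` at interior points. -/

open MeasureTheory Metric Filter Topology Set
open scoped ContDiff

noncomputable section
namespace Vale.Agent.P366.CF
open Vale.Agent.P366 (pd E)
open Vale.Agent.P366.H896 (CR)

variable {n : ℕ} {h W : E n → ℝ} {nu Z : Fin n → E n → ℝ} {D : Stmt.Exterior n} {y : E n}

lemma nat_le_top' (k : ℕ) : ((k : ℕ) : WithTop ℕ∞) ≤ ((⊤ : ℕ∞) : WithTop ℕ∞) :=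
  WithTop.coe_le_coe.2 (le_top : (k : ℕ∞) ≤ ⊤)

/-- the local structure of the metric at interior points -/
theorem lnZ (hL : IsFol h nu W D) : Ln D.g nu W {y | 0 < D.F y} where
  M := {
    op := isOpen_lt continuous_const D.dom.1.continuous
    sm := fun a b x _ => ((D.smooth a b).1.contDiffAt).of_le (nat_le_top' _)
    symm := fun x _ a b => (D.symm x a b).1
    det := fun x hx => (D.pos x (le_of_lt hx)).det_pos.ne' }
  sN := fun i x hx => (hL.smN x (le_of_lt hx) i).of_le (nat_le_top' _)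
  sW := fun x hx => (hL.smW x (le_of_lt hx)).of_le (nat_le_top' _)
  un := fun z hz => by
    rw [← hL.unit z (le_of_lt hz)]
    exact Finset.sum_congr rfl fun i _ => by ring
  fr := fun z hz => hL.frob z (le_of_lt hz)
  pos := fun z hz => one_W_pos hL (le_of_lt hz)
  met := fun z hz => hL.met z (le_of_lt hz)

/-- smoothness of the field -/
theorem QZ_cd (hL : IsFol h nu W D) (hZ : ∀ j, Stmt.Smooth (Z j)) (hy : 0 ≤ D.F y) (i : Fin n) :
    ContDiffAt ℝ ∞ (QZ W D.g D.K Z i) y := by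
  have hup : ∀ i j, ContDiffAt ℝ ∞ (Stmt.up D.g i j) y := fun i j =>
    Vale.Agent.P366.Bridge.contDiffAt_inv_entry (A := Stmt.mat D.g)
      (fun a b => ((D.smooth a b).1).contDiffAt) (D.pos y hy).det_pos.ne' i j
  have htr : ContDiffAt ℝ ∞ (Stmt.tr D.g D.K) y :=
    ContDiffAt.sum fun a _ => ContDiffAt.sum fun b _ =>
      (hup a b).mul ((D.smooth a b).2.contDiffAt)
  have hm : ∀ i j, ContDiffAt ℝ ∞ (fun y => Stmt.momT D.g D.K y i j) y := fun i j =>
    ((D.smooth i j).2.contDiffAt).sub (htr.mul ((D.smooth i j).1.contDiffAt))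
  have hs : ContDiffAt ℝ ∞ (fun y => √(1 + W y)) y :=
    (contDiffAt_const.add (hL.smW y hy)).sqrt (one_W_pos hL hy).ne'
  exact hs.mul (ContDiffAt.sum fun k _ => (hup i k).mul (ContDiffAt.sum fun j _ =>
    (hm k j).mul ((hZ j).contDiffAt)))

/-- **The divergence of `√(1 + W) π(Z)`.** -/
theorem div_QZS (hL : IsFol h nu W D) (hZ : ∀ j, Stmt.Smooth (Z j)) (hy : 0 < D.F y) :
    ∑ i, Stmt.pd i (QZ W D.g D.K Z i) y = √(1 + W y) *
      (∑ j, Stmt.mom D.g D.K j y * Z j y + GraphClass.piDer D.g D.K Z y) :=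
  div_gQ (lnZ hL).M (fun i j x _ => ((D.smooth i j).2.contDiffAt).of_le (nat_le_top' _))
    (fun j x _ => ((hZ j).contDiffAt).of_le (nat_le_top' _)) hy
    (fun i => (lnZ hL).vol hy i)

/-- The same with the partial derivatives of `fderiv`. -/
theorem div_QZ (hL : IsFol h nu W D) (hZ : ∀ j, Stmt.Smooth (Z j)) (hy : 0 < D.F y) :
    ∑ i, pd i (QZ W D.g D.K Z i) y = √(1 + W y) *
      (∑ j, Stmt.mom D.g D.K j y * Z j y + GraphClass.piDer D.g D.K Z y) := by
  rw [← div_QZS hL hZ hy]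
  exact Finset.sum_congr rfl fun i _ => (CL.spd_eq (QZ_cd hL hZ hy.le i) i).symm

end Vale.Agent.P366.CF
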