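import Vale.Agent.P366.H208.CF.DivV
import Vale.Agent.P366.H45.Rest
import Vale.Agent.P366.CL.Flux

/-! The divergence of `√(det g) π(Z)` for a vector field `Z`. -/

open MeasureTheory Metric Filter Topology Set
open scoped ContDiff

noncomputable section
namespace Vale.Agent.P366.CF
open Vale.Agent.P366.Stmt Vale.Agent.P366.T2 Vale.Agent.P366.GC
open Vale.Agent.P366.H896 (CR pd_comm pd_congrU)
open Vale.Agent.P366.SH (kb div_cov cov_contr dot2 cr_tr cr_momT)

variable {n : ℕ} {g K : Stmt.Field n} {W v : E n → ℝ} {O : Set (E n)} {Z : Fin n → E n → ℝ}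
  {y z : E n}

/-- The vector field `√(1 + W) π(Z)`. -/
def QZ (W : E n → ℝ) (g K : Stmt.Field n) (Z : Fin n → E n → ℝ) (i : Fin n) (y : E n) : ℝ :=
  √(1 + W y) * ∑ k, Stmt.up g i k y * ∑ j, Stmt.momT g K y k j * Z j y

/-- The divergence of `v π(Z)`, `v` the volume element. -/
theorem div_gQ (hM : Met g O) (hK : ∀ i j, CR 1 O fun y => K y i j)
    (hZ : ∀ j, CR 1 O (Z j)) (hz : z ∈ O)
    (hv : ∀ i, HP i v (v z * ∑ m, Stmt.chr g m i m z) z) :
    ∑ i, Stmt.pd i (fun y => v y * ∑ k, Stmt.up g i k y *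
      ∑ j, Stmt.momT g K y k j * Z j y) z =
    v z * (∑ j, Stmt.mom g K j z * Z j z + GraphClass.piDer g K Z z) := by
  have hπ := cr_momT hM hK
  obtain ⟨θ, hθ⟩ : ∃ θ : Fin n → E n → ℝ, θ = fun k y => ∑ j, Stmt.momT g K y k j * Z j y :=
    ⟨_, rfl⟩
  have hθc : ∀ k, CR 1 O (θ k) := fun k => by
    rw [hθ]
    exact CR.sum _ fun j => (hπ k j).mul (hZ j)
  have hX : ∀ i, CR 1 O fun y => ∑ m, Stmt.up g i m y * θ m y := fun i =>
    CR.sum _ fun m => ((hM.cr_up i m).le (by norm_num)).mul (hθc m)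
  have h1 : ∀ i, Stmt.pd i (fun y => v y * ∑ k, Stmt.up g i k y *
      ∑ j, Stmt.momT g K y k j * Z j y) z = v z *
      (Stmt.pd i (fun y => ∑ m, Stmt.up g i m y * θ m y) z +
      (∑ m, Stmt.chr g m i m z) * ∑ m, Stmt.up g i m z * θ m z) := by
    intro i
    have a1 : HP i (fun y => v y * ∑ m, Stmt.up g i m y * θ m y) _ z :=
      (hv i).mul (CR.hp (hX i) hz i)
    have a2 : (fun y => v y * ∑ k, Stmt.up g i k y * ∑ j, Stmt.momT g K y k j * Z j y) =
        fun y => v y * ∑ m, Stmt.up g i m y * θ m y := by rw [hθ]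
    rw [a2, a1.pd]
    ring
  simp only [h1]
  rw [← Finset.mul_sum, div_cov hM hθc hz]
  congr 1
  -- the covariant derivative of `π(Z)`
  have h2 : ∀ i m, Stmt.pd i (θ m) z - ∑ d, Stmt.chr g d i m z * θ d z =
      ∑ j, (cdK g (Stmt.momT g K) i m j z * Z j z +
        Stmt.momT g K z m j * GraphClass.covDer g Z i j z) := by
    intro i m
    have a1 : HP i (θ m) (∑ j, (Stmt.pd i (fun y => Stmt.momT g K y m j) z * Z j z +
        Stmt.momT g K z m j * Stmt.pd i (Z j) z)) z := by
      rw [hθ]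
      exact HP.sum _ fun j _ => (CR.hp (hπ m j) hz i).mul (CR.hp (hZ j) hz i)
    rw [a1.pd]
    have a2 : ∑ d, Stmt.chr g d i m z * θ d z =
        ∑ j, (∑ d, Stmt.chr g d i m z * Stmt.momT g K z d j) * Z j z := by
      rw [hθ]
      simp only [Finset.mul_sum, Finset.sum_mul]
      rw [Finset.sum_comm]
      exact Finset.sum_congr rfl fun j _ => Finset.sum_congr rfl fun d _ => by ring
    have a3 : ∑ j, (∑ l, Stmt.chr g l i j z * Stmt.momT g K z m l) * Z j z =
        ∑ j, Stmt.momT g K z m j * ∑ l, Stmt.chr g j i l z * Z l z := by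
      simp only [Finset.mul_sum, Finset.sum_mul]
      rw [Finset.sum_comm]
      exact Finset.sum_congr rfl fun j _ => Finset.sum_congr rfl fun d _ => by ring
    have a4 : ∀ j, Stmt.pd i (fun y => Stmt.momT g K y m j) z =
        cdK g (Stmt.momT g K) i m j z + ∑ d, Stmt.chr g d i m z * Stmt.momT g K z d j +
          ∑ l, Stmt.chr g l i j z * Stmt.momT g K z m l := by
      intro j
      unfold cdK
      rw [Finset.sum_add_distrib]
      ring
    rw [a2]
    simp only [a4, GraphClass.covDer, add_mul, mul_add, Finset.sum_add_distrib]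
    rw [a3]
    ring
  simp only [h2, Finset.sum_add_distrib, mul_add]
  congr 1
  · -- the momentum density
    have b1 : ∀ j, Stmt.mom g K j z =
        ∑ i, ∑ m, Stmt.up g i m z * cdK g (Stmt.momT g K) m i j z := fun j => rfl
    simp only [b1, Finset.sum_mul, Finset.mul_sum]
    calc ∑ i, ∑ m, ∑ j, Stmt.up g i m z * (cdK g (Stmt.momT g K) i m j z * Z j z)
        = ∑ m, ∑ i, ∑ j, Stmt.up g i m z * (cdK g (Stmt.momT g K) i m j z * Z j z) :=
          Finset.sum_comm
      _ = ∑ m, ∑ j, ∑ i, Stmt.up g i m z * (cdK g (Stmt.momT g K) i m j z * Z j z) :=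
          Finset.sum_congr rfl fun m _ => Finset.sum_comm
      _ = ∑ j, ∑ m, ∑ i, Stmt.up g i m z * (cdK g (Stmt.momT g K) i m j z * Z j z) :=
          Finset.sum_comm
      _ = _ := Finset.sum_congr rfl fun j _ => Finset.sum_congr rfl fun m _ =>
          Finset.sum_congr rfl fun i _ => by rw [hM.up_symm hz i m]; ring
  · unfold GraphClass.piDer
    rw [Finset.sum_comm]
    exact Finset.sum_congr rfl fun i _ => Finset.sum_congr rfl fun m _ => by
      rw [hM.up_symm hz m i]

end Vale.Agent.P366.CF
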