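import Vale.Agent.P366.H353.CF.Bdr

/-! The boundary inequality for data foliated by hypersurfaces of Euclidean space. -/

open MeasureTheory Metric Filter Topology Set
open scoped ContDiff ENNReal

noncomputable section
namespace Vale.Agent.P366.CF

open Vale.Agent.P366 (pd E)
open Vale.Agent.P366.CH (bp mc Bodies levAll bodies_one bp_sup supC)
open Vale.Agent.P366.Convex (IsSupport ray)

variable {n : ℕ} {nu : Fin n → E n → ℝ} {W : E n → ℝ} {D : Stmt.Exterior n} {h : E n → ℝ}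
  {x y : E n}

/-- The null expansion of the boundary. -/
theorem theta_CF [Fact (3 ≤ n)] (hL : IsFol h nu W D) (hx : ‖x‖ = 1) :
    Stmt.thetaPlus D.g D.K D.F (ray h x 0) =
      mcl nu (ray h x 0) / √(1 + W (ray h x 0)) + trL nu D.K (ray h x 0) := by
  have h1 := hL.toFb.theta () hx
  rwa [bp_sup hL.sup hx] at h1

/-- On the boundary `τ / H ≤ -1`. -/
theorem rat_CF [Fact (3 ≤ n)] (hL : IsFol h nu W D) (hT : D.Trapped) (hx : ‖x‖ = 1) :
    rat nu W D.K (ray h x 0) ≤ -1 := by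
  have h1 := hL.toFb.rat_bdr hT () hx
  rwa [bp_sup hL.sup hx] at h1

/-- The exact boundary flux. -/
theorem nor_CF [Fact (3 ≤ n)] (hL : IsFol h nu W D) (hx : ‖x‖ = 1) :
    ∑ i, XF nu W D.K i (ray h x 0) * x i =
      vv nu W D.K (ray h x 0) / 2 * mcl nu (ray h x 0) := by
  have hB := hL.toFb
  have h1 := hB.XF_nor (hB.bmem () hx)
  rw [bp_sup hL.sup hx] at h1
  rw [← h1]
  exact Finset.sum_congr rfl fun i _ => by rw [hL.bdr x hx i]

theorem one_le_CF [Fact (3 ≤ n)] (hL : IsFol h nu W D) (hT : D.Trapped) (hx : ‖x‖ = 1) :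
    1 ≤ vv nu W D.K (ray h x 0) := by
  have h1 := hL.toFb.one_le_vv hT () hx
  rwa [bp_sup hL.sup hx] at h1

/-- The boundary inequality. -/
theorem bdr_XF [Fact (3 ≤ n)] (hL : IsFol h nu W D) (hT : D.Trapped) (hx : ‖x‖ = 1) :
    mcl nu (ray h x 0) / 2 ≤ ∑ i, XF nu W D.K i (ray h x 0) * x i := by
  rw [nor_CF hL hx]
  have h1 := one_le_CF hL hT hx
  have hB := hL.toFb
  have h2 : 0 ≤ D.F (ray h x 0) := by
    have h3 := hB.bmem () hx
    rwa [bp_sup hL.sup hx] at h3
  have h3 := hL.mcp _ h2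
  nlinarith

end Vale.Agent.P366.CF
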